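import Vale.Agent.P247.H931.S1.Tsw

/-!
# A priori bound of the `H¹` norm of truncated solutions with bounded spinor
-/

open scoped ContDiff Topology
open Set MeasureTheory Filter Metric

noncomputable section

namespace Vale.Agent.P247.H199

open Vale.Agent.P247.H74 Vale.Agent.P247.H574 Vale.Agent.P247.H957 Vale.Agent.P247.H647
open Vale.Agent.P247.H931.S1 Vale.Agent.P247.H332.E6

lemma tsw_curvEq {D : Data} {Q : Quat D} {R : ℝ} {A : R4 → R4 →L[ℝ] ℝ} {ψ : R4 → Sp}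
    {v : Fin 3 → ℝ} (hT : TSW Q R A ψ v) :
    CurvEq Q A ψ v (fun x => gT (‖ψ x‖ ^ 2 / R ^ 2)) := by
  intro x j
  rw [hT.curv x j]
  congr 2
  rw [Finset.mul_sum]
  refine Finset.sum_congr rfl fun k _ => ?_
  unfold qR
  ring

lemma abs_sp_le (s : Sp) (k : Fin 3) : |sp s k| ≤ ‖s‖ ^ 2 := by
  have h1 := sp_sq s
  have h2 : sp s k ^ 2 ≤ ∑ k, sp s k ^ 2 :=
    Finset.single_le_sum (f := fun k => sp s k ^ 2) (fun k _ => sq_nonneg _) (Finset.mem_univ k)
  rw [h1] at h2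
  exact abs_le_of_sq_le_sq h2 (by positivity)

/-- the self-dual part of the curvature is bounded -/
lemma Fh_bound (hFRM : FRM_statement) {D : Data} (Q : Quat D) (M : ℝ) : ∃ C : ℝ, 0 ≤ C ∧
    ∀ (R : ℝ) (A : R4 → R4 →L[ℝ] ℝ) (ψ : R4 → Sp) (v : Fin 3 → ℝ), TSW Q R A ψ v →
      (∀ j, |v j| ≤ M) → (∀ x, ‖ψ x‖ ^ 2 ≤ M) → ∀ x k, |Q.Fh A x k| ≤ C := by
  have h1 : ∀ k j, ∃ C, 0 ≤ C ∧ ∀ x, ‖Ti Q k j x‖ ≤ C := fun k j =>
    bdd_per (Ti_smooth Q k j).continuous (Ti_per Q k j)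
  choose C hC0 hC using h1
  refine ⟨(∑ k, ∑ j, C k j) * |M| + |M|, by
    have : 0 ≤ ∑ k, ∑ j, C k j := Finset.sum_nonneg fun k _ => Finset.sum_nonneg fun j _ => hC0 k j
    positivity, ?_⟩
  intro R A ψ v hT hv hψ x k
  rw [Fh_eq Q hFRM (tsw_curvEq hT)]
  have hM : 0 ≤ M := le_trans (sq_nonneg _) (hψ x)
  rw [abs_of_nonneg hM]
  have h2 : |Q.dv x v k| ≤ (∑ k, ∑ j, C k j) * M := by
    rw [dv_eq]
    calc |∑ j, Ti Q k j x * v j| ≤ ∑ j, |Ti Q k j x * v j| := Finset.abs_sum_le_sum_abs _ _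
      _ ≤ ∑ j, C k j * M := by
          refine Finset.sum_le_sum fun j _ => ?_
          rw [abs_mul]
          exact mul_le_mul (hC k j x) (hv j) (abs_nonneg _) (hC0 k j)
      _ = (∑ j, C k j) * M := by rw [Finset.sum_mul]
      _ ≤ _ := mul_le_mul_of_nonneg_right
          (Finset.single_le_sum (f := fun k => ∑ j, C k j)
            (fun k _ => Finset.sum_nonneg fun j _ => hC0 k j) (Finset.mem_univ k)) hM
  have h3 : |(1 / 2) * (gT (‖ψ x‖ ^ 2 / R ^ 2) * sp (ψ x) k)| ≤ M := by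
    rw [abs_mul, abs_mul, abs_of_nonneg (gT_nonneg _), abs_of_pos (by norm_num : (0:ℝ) < 1 / 2)]
    have h4 : gT (‖ψ x‖ ^ 2 / R ^ 2) * |sp (ψ x) k| ≤ 1 * M :=
      mul_le_mul (gT_le_one _) ((abs_sp_le _ _).trans (hψ x)) (abs_nonneg _) zero_le_one
    linarith
  calc |Q.dv x v k - (1 / 2) * (gT (‖ψ x‖ ^ 2 / R ^ 2) * sp (ψ x) k)| ≤ _ := abs_sub _ _
    _ ≤ _ := add_le_add h2 h3

lemma norm_pau_le : ∃ K : ℝ, 0 ≤ K ∧ ∀ k (s : Sp), ‖pau k s‖ ≤ K * ‖s‖ :=
  ⟨∑ k, ‖pau k‖, Finset.sum_nonneg fun _ _ => norm_nonneg _, fun k s =>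
    ((pau k).le_opNorm s).trans (mul_le_mul_of_nonneg_right
      (Finset.single_le_sum (f := fun k => ‖pau k‖) (fun _ _ => norm_nonneg _)
        (Finset.mem_univ k)) (norm_nonneg _))⟩

/-- the covariant derivatives in the frame are bounded in `L²` -/
lemma cov_bd (hIL : IL_statement) (hFRM : FRM_statement) {D : Data} (Q : Quat D) (M : ℝ) :
    ∃ C : ℝ, 0 ≤ C ∧ ∀ (R : ℝ) (A : R4 → R4 →L[ℝ] ℝ) (ψ : R4 → Sp) (v : Fin 3 → ℝ), TSW Q R A ψ v →
      (∀ j, |v j| ≤ M) → (∀ x, ‖ψ x‖ ^ 2 ≤ M) →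
      ∫ x in cube, ∑ c, ‖cov A ψ x (Q.b c x)‖ ^ 2 ≤ C * ∫ x in cube, ‖ψ x‖ ^ 2 := by
  obtain ⟨δ, B, -, -, hB, hBp, h⟩ := hIL D Q
  obtain ⟨F, hF0, hF⟩ := Fh_bound hFRM Q M
  obtain ⟨P, hP0, hP⟩ := norm_pau_le
  have hBb : ∀ c, ∃ K, 0 ≤ K ∧ ∀ x, ‖B c x‖ ≤ K := fun c => bdd_per (hB c).continuous (hBp c)
  choose K hK0 hK using hBb
  refine ⟨2 * (3 * (F * P) + ∑ c, K c ^ 2 / 2), by positivity, ?_⟩
  intro R A ψ v hT hv hψ
  have h1 := (h A ψ ψ hT.A_smooth hT.A_quasi hT.ψ_smooth hT.ψ_quasi hT.ψ_smooth hT.ψ_quasi).2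
  have hD : ∀ x, Q.dirac A ψ x = 0 := hT.dirac
  simp only [hD, inner_zero_left, integral_zero] at h1
  -- continuity of everything
  have hcov : ∀ c, Continuous fun x => cov A ψ x (Q.b c x) := by
    intro c
    unfold cov
    have e1 : Continuous (fderiv ℝ ψ) := hT.ψ_smooth.continuous_fderiv (by simp)
    exact (e1.clm_apply (Q.b_smooth c).continuous).sub
      ((continuous_const.mul (Complex.continuous_ofReal.comp
        (hT.A_smooth.continuous.clm_apply (Q.b_smooth c).continuous))).smul hT.ψ_smooth.continuous)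
  have hsp : ∀ k, Continuous fun x => sp (ψ x) k := by
    intro k
    unfold sp
    exact Complex.continuous_re.comp (hT.ψ_smooth.continuous.inner
      ((pau k).continuous.comp hT.ψ_smooth.continuous))
  have hFh : ∀ k, Continuous fun x => Q.Fh A x k := by
    intro k
    have e0 : (fun x => Q.Fh A x k) = fun x => ∑ j, Ti Q k j x * v j -
        (1 / 2) * (gT (‖ψ x‖ ^ 2 / R ^ 2) * sp (ψ x) k) := by
      funext x
      rw [Fh_eq Q hFRM (tsw_curvEq hT), dv_eq]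
    rw [e0]
    refine (continuous_finsetSum _ fun j _ => (Ti_smooth Q k j).continuous.mul
      continuous_const).sub (continuous_const.mul (Continuous.mul ?_ (hsp k)))
    exact contDiff_gT.continuous.comp ((hT.ψ_smooth.continuous.norm.pow 2).div_const _)
  set g : R4 → ℂ := fun x => ∑ c, inner ℂ (cov A ψ x (Q.b c x)) (cov A ψ x (Q.b c x))
    - ∑ k, (Q.Fh A x k : ℂ) * inner ℂ (pau k (ψ x)) (ψ x)
    + ∑ c, inner ℂ (B c x (cov A ψ x (Q.b c x))) (ψ x) with hg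
  have hgc : Continuous g := by
    refine ((continuous_finsetSum _ fun c _ => (hcov c).inner (hcov c)).sub
      (continuous_finsetSum _ fun k _ => (Complex.continuous_ofReal.comp (hFh k)).mul
        (((pau k).continuous.comp hT.ψ_smooth.continuous).inner hT.ψ_smooth.continuous))).add
      (continuous_finsetSum _ fun c _ => Continuous.inner ?_ hT.ψ_smooth.continuous)
    exact (hB c).continuous.clm_apply (hcov c)
  have hint : ∀ f : R4 → ℝ, Continuous f → IntegrableOn f cube := fun f hf =>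
    hf.continuousOn.integrableOn_compact isCompact_Icc
  have hre : ∫ x in cube, (g x).re = 0 := by
    have e1 : IntegrableOn g cube := hgc.continuousOn.integrableOn_compact isCompact_Icc
    have e2 := integral_re (𝕜 := ℂ) e1
    rw [← h1] at e2
    simpa using e2
  have hpt : ∀ x, (1 / 2) * ∑ c, ‖cov A ψ x (Q.b c x)‖ ^ 2 -
      (3 * (F * P) + ∑ c, K c ^ 2 / 2) * ‖ψ x‖ ^ 2 ≤ (g x).re := by
    intro x
    have e1 : (g x).re = ∑ c, ‖cov A ψ x (Q.b c x)‖ ^ 2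
        - ∑ k, ((Q.Fh A x k : ℂ) * inner ℂ (pau k (ψ x)) (ψ x)).re
        + ∑ c, (inner ℂ (B c x (cov A ψ x (Q.b c x))) (ψ x)).re := by
      simp only [hg, Complex.add_re, Complex.sub_re, Complex.re_sum]
      congr 2
      refine Finset.sum_congr rfl fun c _ => ?_
      rw [inner_self_eq_norm_sq_to_K]
      norm_cast
    have e2 : ∑ k, ((Q.Fh A x k : ℂ) * inner ℂ (pau k (ψ x)) (ψ x)).re ≤
        3 * (F * P) * ‖ψ x‖ ^ 2 := by
      have e3 : ∀ k, ((Q.Fh A x k : ℂ) * inner ℂ (pau k (ψ x)) (ψ x)).re ≤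
          F * P * ‖ψ x‖ ^ 2 := by
        intro k
        refine (Complex.re_le_norm _).trans ?_
        rw [norm_mul, Complex.norm_real]
        calc ‖Q.Fh A x k‖ * ‖inner ℂ (pau k (ψ x)) (ψ x)‖ ≤ F * (P * ‖ψ x‖ * ‖ψ x‖) := by
              refine mul_le_mul (hF R A ψ v hT hv hψ x k) ?_ (norm_nonneg _) hF0
              exact (norm_inner_le_norm _ _).trans
                (mul_le_mul_of_nonneg_right (hP k _) (norm_nonneg _))
          _ = _ := by ring
      calc _ ≤ ∑ _k : Fin 3, F * P * ‖ψ x‖ ^ 2 := Finset.sum_le_sum fun k _ => e3 k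
        _ = _ := by
          rw [Finset.sum_const, Finset.card_univ, Fintype.card_fin]
          simp only [nsmul_eq_mul]
          push_cast
          ring
    have e4 : -(∑ c, ((1 / 2) * ‖cov A ψ x (Q.b c x)‖ ^ 2 + K c ^ 2 / 2 * ‖ψ x‖ ^ 2)) ≤
        ∑ c, (inner ℂ (B c x (cov A ψ x (Q.b c x))) (ψ x)).re := by
      rw [← Finset.sum_neg_distrib]
      refine Finset.sum_le_sum fun c _ => ?_
      have e5 : |(inner ℂ (B c x (cov A ψ x (Q.b c x))) (ψ x)).re| ≤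
          K c * ‖cov A ψ x (Q.b c x)‖ * ‖ψ x‖ := by
        refine (Complex.abs_re_le_norm _).trans ((norm_inner_le_norm _ _).trans ?_)
        refine mul_le_mul_of_nonneg_right ?_ (norm_nonneg _)
        exact (B c x).le_of_opNorm_le (hK c x) _
      have e6 := neg_abs_le (inner ℂ (B c x (cov A ψ x (Q.b c x))) (ψ x)).re
      nlinarith [sq_nonneg (‖cov A ψ x (Q.b c x)‖ - K c * ‖ψ x‖)]
    rw [Finset.sum_add_distrib, ← Finset.mul_sum, ← Finset.sum_mul] at e4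
    rw [e1]
    linarith
  have hN : Continuous fun x => ∑ c, ‖cov A ψ x (Q.b c x)‖ ^ 2 :=
    continuous_finsetSum _ fun c _ => (hcov c).norm.pow 2
  have hψ2 : Continuous fun x => ‖ψ x‖ ^ 2 := hT.ψ_smooth.continuous.norm.pow 2
  have hmain : ∫ x in cube, ((1 / 2) * ∑ c, ‖cov A ψ x (Q.b c x)‖ ^ 2 -
      (3 * (F * P) + ∑ c, K c ^ 2 / 2) * ‖ψ x‖ ^ 2) ≤ ∫ x in cube, (g x).re :=
    setIntegral_mono (hint _ ((continuous_const.mul hN).sub (continuous_const.mul hψ2)))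
      (hint _ (Complex.continuous_re.comp hgc)) hpt
  have i1 : IntegrableOn (fun x => (1 / 2) * ∑ c, ‖cov A ψ x (Q.b c x)‖ ^ 2) cube :=
    hint _ (continuous_const.mul hN)
  have i2 : IntegrableOn (fun x => (3 * (F * P) + ∑ c, K c ^ 2 / 2) * ‖ψ x‖ ^ 2) cube :=
    hint _ (continuous_const.mul hψ2)
  rw [hre, integral_sub i1 i2, integral_const_mul, integral_const_mul] at hmain
  linarith

/-- The `H¹` norm of a truncated solution with bounded spinor and bounded connection. -/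
theorem apr (hIL : IL_statement) (hFRM : FRM_statement) {D : Data} (Q : Quat D) (M : ℝ) :
    ∃ C : ℝ, ∀ (R : ℝ) (ξ : ℝ × ℝ) (a : Fin 4 → R4 → ℝ) (ψ : R4 → Sp) (v : Fin 3 → ℝ),
      (∀ i, ContDiff ℝ ∞ (a i)) → TSW Q R (conA ξ a) ψ v → (∀ j, |v j| ≤ M) →
      (∀ x, ‖ψ x‖ ^ 2 ≤ M) → ∫ x in cube, ∑ i, a i x ^ 2 ≤ M →
      ∫ x in cube, (‖ψ x‖ ^ 2 + ∑ j, ‖cov (A0 ξ) ψ x (e j)‖ ^ 2) ≤ C := by
  obtain ⟨C, hC0, hC⟩ := cov_bd hIL hFRM Q M
  have hcoef : ∀ j, ∃ K, 0 ≤ K ∧ ∀ x, ‖coef Q x (e j)‖ ≤ K := by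
    intro j
    refine bdd_per (g := fun x => coef Q x (e j)) ?_ ?_
    · have hM : Continuous fun x => (Matrix.of fun i a => Q.b a x i : Matrix (Fin 4) (Fin 4) ℝ) := by
        refine continuous_matrix fun i a => ?_
        exact (continuous_apply i).comp (Q.b_smooth a).continuous
      exact hM.matrix_adjugate.matrix_mulVec continuous_const
    · intro n x
      simp only [coef, Q.b_per _ n x]
  choose K hK0 hK using hcoef
  refine ⟨|M| + 2 * (∑ j, 4 * K j ^ 2) * (C * |M|) + 2 * |M| * |M|, ?_⟩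
  intro R ξ a ψ v ha hT hv hψ hai
  have hM : 0 ≤ M := le_trans (sq_nonneg _) (hψ 0)
  rw [abs_of_nonneg hM]
  have hint : ∀ f : R4 → ℝ, Continuous f → IntegrableOn f cube := fun f hf =>
    hf.continuousOn.integrableOn_compact isCompact_Icc
  have hcube : volume cube = 1 := by
    rw [cube, Real.volume_Icc_pi]
    simp
  have hψc := hT.ψ_smooth.continuous
  have hψ2 : Continuous fun x => ‖ψ x‖ ^ 2 := hψc.norm.pow 2
  have hψi : ∫ x in cube, ‖ψ x‖ ^ 2 ≤ M := by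
    calc ∫ x in cube, ‖ψ x‖ ^ 2 ≤ ∫ _x in cube, M :=
          setIntegral_mono (hint _ hψ2) (hint _ continuous_const) hψ
      _ = M := by
        rw [setIntegral_const, Measure.real, hcube]
        simp
  have hN := hC R (conA ξ a) ψ v hT hv hψ
  have hcov : ∀ (A : R4 → R4 →L[ℝ] ℝ) (u : R4 → R4), ContDiff ℝ ∞ A → Continuous u →
      Continuous fun x => cov A ψ x (u x) := by
    intro A u hA hu
    unfold cov
    have e1 : Continuous (fderiv ℝ ψ) := hT.ψ_smooth.continuous_fderiv (by simp)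
    exact (e1.clm_apply hu).sub ((continuous_const.mul (Complex.continuous_ofReal.comp
      (hA.continuous.clm_apply hu))).smul hψc)
  have hNc : Continuous fun x => ∑ c, ‖cov (conA ξ a) ψ x (Q.b c x)‖ ^ 2 :=
    continuous_finsetSum _ fun c _ => (hcov _ _ hT.A_smooth (Q.b_smooth c).continuous).norm.pow 2
  have hac : Continuous fun x => ∑ i, a i x ^ 2 :=
    continuous_finsetSum _ fun i _ => (ha i).continuous.pow 2
  -- pointwise
  have hpt : ∀ x, ∑ j, ‖cov (A0 ξ) ψ x (e j)‖ ^ 2 ≤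
      2 * (∑ j, 4 * K j ^ 2) * (∑ c, ‖cov (conA ξ a) ψ x (Q.b c x)‖ ^ 2) +
        2 * M * ∑ i, a i x ^ 2 := by
    intro x
    rw [Finset.mul_sum (s := Finset.univ) (f := fun i => a i x ^ 2), mul_assoc 2, Finset.sum_mul,
      Finset.mul_sum, ← Finset.sum_add_distrib]
    refine Finset.sum_le_sum fun j _ => ?_
    have e1 : cov (A0 ξ) ψ x (e j) = cov (conA ξ a) ψ x (e j) +
        (Complex.I * (a j x : ℂ)) • ψ x := by
      unfold cov
      rw [conA_e]
      push_cast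
      module
    have e2 : ‖cov (conA ξ a) ψ x (e j)‖ ≤ K j * ∑ c, ‖cov (conA ξ a) ψ x (Q.b c x)‖ := by
      refine cov_bound Q x (e j) fun d => ?_
      rw [← Real.norm_eq_abs]
      exact (norm_le_pi_norm _ d).trans (hK j x)
    have e3 : (∑ c, ‖cov (conA ξ a) ψ x (Q.b c x)‖) ^ 2 ≤
        4 * ∑ c, ‖cov (conA ξ a) ψ x (Q.b c x)‖ ^ 2 := by
      have := sq_sum_le_card_mul_sum_sq (s := Finset.univ)
        (f := fun c => ‖cov (conA ξ a) ψ x (Q.b c x)‖)
      simpa using this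
    have e4 : ‖(Complex.I * (a j x : ℂ)) • ψ x‖ ^ 2 ≤ M * a j x ^ 2 := by
      rw [norm_smul, norm_mul, Complex.norm_I, one_mul, Complex.norm_real, mul_pow,
        Real.norm_eq_abs, sq_abs]
      nlinarith [hψ x, sq_nonneg (a j x)]
    rw [e1]
    have e5 : ‖cov (conA ξ a) ψ x (e j) + (Complex.I * (a j x : ℂ)) • ψ x‖ ^ 2 ≤
        2 * ‖cov (conA ξ a) ψ x (e j)‖ ^ 2 + 2 * ‖(Complex.I * (a j x : ℂ)) • ψ x‖ ^ 2 := by
      have := norm_add_le (cov (conA ξ a) ψ x (e j)) ((Complex.I * (a j x : ℂ)) • ψ x)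
      nlinarith [norm_nonneg (cov (conA ξ a) ψ x (e j) + (Complex.I * (a j x : ℂ)) • ψ x),
        sq_nonneg (‖cov (conA ξ a) ψ x (e j)‖ - ‖(Complex.I * (a j x : ℂ)) • ψ x‖)]
    have e6 : ‖cov (conA ξ a) ψ x (e j)‖ ^ 2 ≤
        K j ^ 2 * (4 * ∑ c, ‖cov (conA ξ a) ψ x (Q.b c x)‖ ^ 2) := by
      calc _ ≤ (K j * ∑ c, ‖cov (conA ξ a) ψ x (Q.b c x)‖) ^ 2 := by gcongr
        _ = K j ^ 2 * (∑ c, ‖cov (conA ξ a) ψ x (Q.b c x)‖) ^ 2 := by ring
        _ ≤ _ := by gcongr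
    linarith
  have hL : Continuous fun x => ∑ j, ‖cov (A0 ξ) ψ x (e j)‖ ^ 2 :=
    continuous_finsetSum _ fun j _ => (hcov _ _ (contDiff_A0' ξ) continuous_const).norm.pow 2
  have hmain : ∫ x in cube, ∑ j, ‖cov (A0 ξ) ψ x (e j)‖ ^ 2 ≤
      2 * (∑ j, 4 * K j ^ 2) * (C * M) + 2 * M * M := by
    calc _ ≤ ∫ x in cube, (2 * (∑ j, 4 * K j ^ 2) * (∑ c, ‖cov (conA ξ a) ψ x (Q.b c x)‖ ^ 2) +
          2 * M * ∑ i, a i x ^ 2) :=
          setIntegral_mono (hint _ hL) (hint _ ((continuous_const.mul hNc).add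
            (continuous_const.mul hac))) hpt
      _ = 2 * (∑ j, 4 * K j ^ 2) * (∫ x in cube, ∑ c, ‖cov (conA ξ a) ψ x (Q.b c x)‖ ^ 2) +
          2 * M * ∫ x in cube, ∑ i, a i x ^ 2 := by
          have i1 : IntegrableOn (fun x => 2 * (∑ j, 4 * K j ^ 2) *
              (∑ c, ‖cov (conA ξ a) ψ x (Q.b c x)‖ ^ 2)) cube := hint _ (continuous_const.mul hNc)
          have i2 : IntegrableOn (fun x => 2 * M * ∑ i, a i x ^ 2) cube :=
            hint _ (continuous_const.mul hac)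
          rw [integral_add i1 i2, integral_const_mul, integral_const_mul]
      _ ≤ _ := by
          have h0 : 0 ≤ 2 * (∑ j, 4 * K j ^ 2) := by positivity
          have h3 := mul_le_mul_of_nonneg_left (hN.trans (mul_le_mul_of_nonneg_left hψi hC0)) h0
          have h4 := mul_le_mul_of_nonneg_left hai (by linarith : 0 ≤ 2 * M)
          linarith
  rw [integral_add (hint _ hψ2) (hint _ hL)]
  linarith

end Vale.Agent.P247.H199
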