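import Vale.Agent.P247.H957.Fl0

/-!
# The Seiberg-Witten system on `T⁴` attached to a hypersymplectic triple

Spinors are functions `ψ : ℝ⁴ → ℂ²`, `ψ (x + k) = exp (2 π i k₀ x₁) ψ x`; connections are one-forms
`a` with `a (x + k) = a x + 2 π k₀ dx₁`; `∇ = d - i a`.  The metric is given by an upper triangular
frame `E x a = ∑ E_{ai} ∂ᵢ` of determinant one.
-/

open scoped ContDiff Topology
open Set MeasureTheory Filter Metric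

noncomputable section

namespace Vale.Agent.P247.H199

open Vale.Agent.P247.H74 Vale.Agent.P247.H574

/-- Clifford matrices `σ₀ = 1`, `σ₁ = diag (i, -i)`, `σ₂ = [[0, -1], [1, 0]]`,
`σ₃ = [[0, i], [i, 0]]`; `σ₁ σ₂ = -σ₃`. -/
def sg : Fin 4 → Matrix (Fin 2) (Fin 2) ℂ :=
  ![1, !![Complex.I, 0; 0, -Complex.I], !![0, -1; 1, 0], !![0, Complex.I; Complex.I, 0]]

/-- Pauli matrices `τ_l = -i σ_l` -/
def ta (l : Fin 3) : Matrix (Fin 2) (Fin 2) ℂ := -Complex.I • sg l.succ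

/-- the quadratic map `w ↦ ⟨w, τ_l w⟩` -/
def qd (w : Fin 2 → ℂ) (l : Fin 3) : ℝ :=
  (∑ i, ∑ j, (starRingEnd ℂ) (w i) * ta l i j * w j).re

/-- the matrices of the self-dual forms `e⁰¹ + e²³`, `e⁰² - e¹³`, `e⁰³ + e¹²` -/
def Sg : Fin 3 → Matrix (Fin 4) (Fin 4) ℝ :=
  ![!![0, 1, 0, 0; -1, 0, 0, 0; 0, 0, 0, 1; 0, 0, -1, 0],
    !![0, 0, 1, 0; 0, 0, 0, -1; -1, 0, 0, 0; 0, 1, 0, 0],
    !![0, 0, 0, 1; 0, 0, 1, 0; 0, -1, 0, 0; -1, 0, 0, 0]]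

/-- the triple `om, η 0, η 1` -/
def omt (D : Data) : Fin 3 → CForm := ![D.om, D.η 0, D.η 1]

/-- The metric of the triple: `E x a` is an orthonormal frame, upper triangular and of determinant
one, `om_k = ∑ B_{kj} Σ_j` in this frame; `J` belongs to the direction `∑ (B⁻¹)_{j0} Σ_j`. -/
structure Met (D : Data) where
  E : R4 → Fin 4 → R4
  B : R4 → Fin 3 → Fin 3 → ℝ
  Bi : R4 → Fin 3 → Fin 3 → ℝ
  E_smooth : ContDiff ℝ ∞ E
  B_smooth : ContDiff ℝ ∞ B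
  Bi_smooth : ContDiff ℝ ∞ Bi
  E_per : ∀ (k : Fin 4 → ℤ) x, E (tr k x) = E x
  B_per : ∀ (k : Fin 4 → ℤ) x, B (tr k x) = B x
  Bi_per : ∀ (k : Fin 4 → ℤ) x, Bi (tr k x) = Bi x
  E_up : ∀ x a i, i < a → E x a i = 0
  E_pos : ∀ x a, 0 < E x a a
  E_det : ∀ x, ∏ a, E x a a = 1
  BBi : ∀ x k l, ∑ j, B x k j * Bi x j l = if k = l then 1 else 0
  BiB : ∀ x k l, ∑ j, Bi x k j * B x j l = if k = l then 1 else 0
  frame : ∀ x k a b, (omt D k).val x (E x a) (E x b) = ∑ j, B x k j * Sg j a b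
  J_eq : ∀ x b, √(∑ j, Bi x j 0 ^ 2) • D.J x (E x b) = ∑ c, (∑ j, Bi x j 0 * Sg j b c) • E x c

/-- every `Data` has a metric -/
def MET_statement : Prop := ∀ D : Data, Good D → Nonempty (Met D)

/-- covariant derivative of a spinor in the direction `u` -/
def nabs (a : R4 → R4 →L[ℝ] ℝ) (ψ : R4 → Fin 2 → ℂ) (x u : R4) (i : Fin 2) : ℂ :=
  nab a (fun y => ψ y i) x u

/-- the Dirac operator `∑_b σ_b ∇_{E_b}` -/
def dir (E : R4 → Fin 4 → R4) (a : R4 → R4 →L[ℝ] ℝ) (ψ : R4 → Fin 2 → ℂ) (x : R4) (i : Fin 2) :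
    ℂ := ∑ b, ∑ l, sg b i l * nabs a ψ x (E x b) l

/-- A smooth solution `(a, ψ)` of the Seiberg-Witten system with parameter `v`:
`D_a ψ = 0`, `da ∧ om_k = v_k - ∑ B_{kj} ⟨ψ, τ_j ψ⟩`, i.e. `(da)⁺ = B⁻¹ v - ⟨ψ, τ ψ⟩`. -/
structure Sol {D : Data} (M : Met D) (v : Fin 3 → ℝ) (a : R4 → R4 →L[ℝ] ℝ)
    (ψ : R4 → Fin 2 → ℂ) : Prop where
  a_smooth : ContDiff ℝ ∞ a
  ψ_smooth : ContDiff ℝ ∞ ψ
  a_per : ∀ (k : Fin 4 → ℤ) x,
    a (tr k x) = a x + (2 * Real.pi * k 0) • (ContinuousLinearMap.proj 1 : R4 →L[ℝ] ℝ)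
  ψ_per : ∀ (k : Fin 4 → ℤ) x,
    ψ (tr k x) = Complex.exp (2 * Real.pi * Complex.I * k 0 * x 1) • ψ x
  dirac : ∀ x i, dir M.E a ψ x i = 0
  curv : ∀ x k, w4 (fun u w => dd a x u w) ((omt D k).val x) =
    v k - ∑ j, M.B x k j * qd (ψ x) j

/-- `S1`: solutions with arbitrarily large `L²`-norm. -/
def S1_statement : Prop := ∀ D : Data, Good D → ∀ (M : Met D) (T : ℝ),
  ∃ (v : Fin 3 → ℝ) (a : R4 → R4 →L[ℝ] ℝ) (ψ : R4 → Fin 2 → ℂ), Sol M v a ψ ∧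
    T ≤ ∫ x in Icc (0 : R4) 1, ∑ i, ‖ψ x i‖ ^ 2

/-- `S2`: from Seiberg-Witten solutions to the Higgs sequence. -/
def S2_statement : Prop := MET_statement → S1_statement → HIGGS_statement

end Vale.Agent.P247.H199
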