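import Vale.Agent.P247.H199.Glue0
import Vale.Agent.P247.H199.SW

/-!
# Application of the Fredholm Borsuk-Ulam theorem to Dirac operators on `T⁴`
-/

open scoped ContDiff Topology
open Set MeasureTheory Filter Metric Asymptotics

noncomputable section

namespace Vale.Agent.P247.H199

open Vale.Agent.P247.H74 Vale.Agent.P247.H574 Vale.Agent.P247.H957 Vale.Agent.P247.H94
open Vale.Agent.P247.H931

/-! ## Operator matrices -/

/-- inclusion of a component -/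
def inc (c : Fin 2) : H →L[ℂ] HH :=
  ((PiLp.continuousLinearEquiv 2 ℂ (fun _ : Fin 2 => H)).symm :
    (Fin 2 → H) →L[ℂ] HH) ∘L ContinuousLinearMap.single ℂ (fun _ : Fin 2 => H) c

/-- a component -/
def prj (c : Fin 2) : HH →L[ℂ] H := PiLp.proj 2 (fun _ : Fin 2 => H) c

lemma prj_apply (c : Fin 2) (w : HH) : prj c w = w c := rfl

lemma inc_apply (c d : Fin 2) (v : H) : inc c v d = if d = c then v else 0 := by
  change (Pi.single c v : Fin 2 → H) d = _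
  rw [Pi.single_apply]

/-- a matrix of operators -/
def opMat (T : Fin 2 → Fin 2 → H →L[ℂ] H) : HH →L[ℂ] HH :=
  ∑ c, ∑ d, inc c ∘L T c d ∘L prj d

lemma opMat_apply (T : Fin 2 → Fin 2 → H →L[ℂ] H) (w : HH) (c : Fin 2) :
    opMat T w c = ∑ d, T c d (w d) := by
  simp only [opMat, Fin.sum_univ_two, add_apply, ContinuousLinearMap.comp_apply,
    PiLp.add_apply, inc_apply, prj_apply]
  fin_cases c <;> simp

lemma continuous_opMat {X : Type*} [TopologicalSpace X] {T : X → Fin 2 → Fin 2 → H →L[ℂ] H}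
    {s : Set X} (h : ∀ c d, ContinuousOn (fun x => T x c d) s) :
    ContinuousOn (fun x => opMat (T x)) s := by
  unfold opMat
  refine continuousOn_finsetSum _ fun c _ => continuousOn_finsetSum _ fun d _ => ?_
  exact continuousOn_const.clm_comp ((h c d).clm_comp continuousOn_const)

lemma norm_opMat_le (T : Fin 2 → Fin 2 → H →L[ℂ] H) :
    ‖opMat T‖ ≤ ∑ c, ∑ d, ‖inc c‖ * (‖T c d‖ * ‖prj d‖) := by
  unfold opMat
  refine (norm_sum_le _ _).trans (Finset.sum_le_sum fun c _ => (norm_sum_le _ _).trans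
    (Finset.sum_le_sum fun d _ => ?_))
  exact (ContinuousLinearMap.opNorm_comp_le _ _).trans
    (mul_le_mul_of_nonneg_left (ContinuousLinearMap.opNorm_comp_le _ _) (norm_nonneg _))

/-! ## The path of frames -/

/-- frames interpolating between `E` and the constant frame -/
def Es (E : Fin 4 → Fin 4 → R4 → ℝ) (s : ℝ) (a j : Fin 4) (x : R4) : ℝ :=
  (1 - s) * E a j x + s * if a = j then 1 else 0

/-- triangular frames -/
structure Tri (E : Fin 4 → Fin 4 → R4 → ℝ) : Prop where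
  smooth : ∀ a i, ContDiff ℝ ∞ (E a i)
  per : ∀ a i (n : Fin 4 → ℤ) x, E a i (tr n x) = E a i x
  up : ∀ a i x, i < a → E a i x = 0
  pos : ∀ a x, 0 < E a a x

lemma Tri.Es {E : Fin 4 → Fin 4 → R4 → ℝ} (h : Tri E) {s : ℝ} (hs : s ∈ Icc (0 : ℝ) 1) :
    Tri (Es E s) where
  smooth a i := (contDiff_const.mul (h.smooth a i)).add contDiff_const
  per a i n x := by simp only [H199.Es, h.per a i n x]
  up a i x hi := by
    have : a ≠ i := ne_of_gt hi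
    simp [H199.Es, h.up a i x hi, this]
  pos a x := by
    simp only [H199.Es, if_true, mul_one]
    have h1 := h.pos a x
    rcases eq_or_lt_of_le hs.1 with h0 | h0
    · subst h0
      simpa using h1
    · have : 0 ≤ (1 - s) * E a a x := mul_nonneg (by linarith [hs.2]) h1.le
      linarith

lemma Tri.det {E : Fin 4 → Fin 4 → R4 → ℝ} (h : Tri E) (x : R4) :
    (Matrix.of fun a i => E a i x).det ≠ 0 := by
  have h1 : (Matrix.of fun a i => E a i x).det = ∏ a, E a a x := by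
    rw [Matrix.det_of_isUpperTriangular]
    · rfl
    · intro a i hi
      exact h.up a i x hi
  rw [h1]
  exact Finset.prod_ne_zero_iff.mpr fun a _ => (h.pos a x).ne'

lemma sg_clifford (a b : Fin 4) :
    (sg a).conjTranspose * sg b + (sg b).conjTranspose * sg a = if a = b then 2 else 0 := by
  fin_cases a <;> fin_cases b <;> ext i j <;> fin_cases i <;> fin_cases j <;>
    simp [sg, Matrix.mul_apply, Fin.sum_univ_two, Matrix.conjTranspose_apply,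
      Matrix.ofNat_apply] <;> norm_num

lemma continuous_metF {E : Fin 4 → Fin 4 → R4 → ℝ} (h : Tri E) (j k : Fin 4) :
    Continuous (metF E j k) := by
  unfold metF
  exact continuous_finsetSum _ fun a _ => (h.smooth a j).continuous.mul (h.smooth a k).continuous

lemma symF_apply (τ : Fin 4 → Matrix (Fin 2) (Fin 2) ℂ) (E : Fin 4 → Fin 4 → R4 → ℝ) (j : Fin 4)
    (x : R4) (c d : Fin 2) : symF τ E j x c d = ∑ a, (E a j x : ℂ) * τ a c d := by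
  simp [symF, Matrix.sum_apply]

lemma continuous_symF {E : Fin 4 → Fin 4 → R4 → ℝ} (h : Tri E)
    (τ : Fin 4 → Matrix (Fin 2) (Fin 2) ℂ) (j : Fin 4) (c d : Fin 2) :
    Continuous fun x => symF τ E j x c d := by
  simp only [symF_apply]
  exact continuous_finsetSum _ fun a _ =>
    (Complex.continuous_ofReal.comp (h.smooth a j).continuous).mul continuous_const

lemma symF_Es (τ : Fin 4 → Matrix (Fin 2) (Fin 2) ℂ) (E : Fin 4 → Fin 4 → R4 → ℝ) (s : ℝ)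
    (j : Fin 4) (x : R4) (c d : Fin 2) :
    symF τ (Es E s) j x c d = ((1 - s : ℝ) : ℂ) * symF τ E j x c d + (s : ℂ) * τ j c d := by
  simp only [symF_apply, Es, Fin.sum_univ_four]
  fin_cases j <;> (push_cast; simp; ring)

/-! ## The family of Dirac operators -/

/-- the operator `D (s, ξ)` -/
def Dh (G : ℝ × ℝ → Fin 4 → H →L[ℂ] H) (E : Fin 4 → Fin 4 → R4 → ℝ) (s : ℝ) (ξ : ℝ × ℝ) :
    HH →L[ℂ] HH :=
  opMat fun c d => ∑ j, (((1 - s : ℝ) : ℂ) • mulOp (fun x => symF sg E j x c d)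
    + ((s : ℂ) * sg j c d) • ContinuousLinearMap.id ℂ H) ∘L Gh G ξ j

lemma Dh_apply {G : ℝ × ℝ → Fin 4 → H →L[ℂ] H} {E : Fin 4 → Fin 4 → R4 → ℝ} (hE : Tri E) (s : ℝ)
    (ξ : ℝ × ℝ) (w : HH) (c : Fin 2) :
    Dh G E s ξ w c = Dop (Gh G) (symF sg (Es E s)) ξ w c := by
  rw [Dh, opMat_apply]
  unfold Dop
  have h1 : ∀ j c d, mulOp (fun x => symF sg (Es E s) j x c d) =
      ((1 - s : ℝ) : ℂ) • mulOp (fun x => symF sg E j x c d)
      + ((s : ℂ) * sg j c d) • ContinuousLinearMap.id ℂ H := by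
    intro j c d
    simp only [symF_Es]
    rw [mulOp_add (f := fun x => ((1 - s : ℝ) : ℂ) * symF sg E j x c d)
      (g := fun _ => (s : ℂ) * sg j c d)
      (continuous_const.mul (continuous_symF hE sg j c d)) continuous_const,
      mulOp_smul _ (continuous_symF hE sg j c d), mulOp_const]
  simp only [h1]
  rw [Finset.sum_comm]
  refine Finset.sum_congr rfl fun d _ => ?_
  rw [sum_apply]
  rfl

/-- conjugation with `Vop` -/
lemma Dop_Gh {G : ℝ × ℝ → Fin 4 → H →L[ℂ] H} {γ : Fin 4 → R4 → Matrix (Fin 2) (Fin 2) ℂ}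
    (hγ : ∀ j c d, Continuous fun x => γ j x c d) (ξ : ℝ × ℝ) (w : Fin 2 → H) (c : Fin 2) :
    Dop (Gh G) γ ξ w c = Vop ξ (Dop G γ ξ (fun d => Vop (-ξ) (w d)) c) := by
  unfold Dop
  simp only [map_sum, Gh, ContinuousLinearMap.comp_apply]
  refine Finset.sum_congr rfl fun j _ => Finset.sum_congr rfl fun d _ => ?_
  rw [Vop_mulOp ξ (hγ j c d)]

lemma Dh_zero {G : ℝ × ℝ → Fin 4 → H →L[ℂ] H} {E : Fin 4 → Fin 4 → R4 → ℝ} (hE : Tri E)
    (ξ : ℝ × ℝ) (w : HH) (c : Fin 2) :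
    Dh G E 0 ξ w c = Dop (Gh G) (symF sg E) ξ w c := by
  rw [Dh_apply hE]
  congr 2
  funext a j x
  simp [Es]

lemma Dh_one (G : ℝ × ℝ → Fin 4 → H →L[ℂ] H) (E : Fin 4 → Fin 4 → R4 → ℝ) (ξ : ℝ × ℝ) (w : HH)
    (c : Fin 2) :
    Dh G E 1 ξ w c = Vop ξ (D1 G ξ (fun d => Vop (-ξ) (w d)) c) := by
  rw [Dh, opMat_apply]
  simp only [sub_self, Complex.ofReal_zero, zero_smul, zero_add, Complex.ofReal_one, one_mul,
    Fin.sum_univ_two, Fin.sum_univ_four, add_apply, ContinuousLinearMap.comp_apply, smul_apply,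
    ContinuousLinearMap.id_apply, Gh]
  fin_cases c
  · simp [sg, D1]
    abel
  · simp [sg, D1]
    abel

lemma D1_add (G : ℝ × ℝ → Fin 4 → H →L[ℂ] H) (ξ : ℝ × ℝ) (v w : Fin 2 → H) (c : Fin 2) :
    D1 G ξ (fun d => v d + w d) c = D1 G ξ v c + D1 G ξ w c := by
  fin_cases c
  · simp [D1]; abel
  · simp [D1]; abel

/-! ## The hypotheses of the Fredholm theorem -/

section hyps

variable {J : ℝ × ℝ → H →L[ℂ] H} {G : ℝ × ℝ → Fin 4 → H →L[ℂ] H} {θ : H}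
  {E : Fin 4 → Fin 4 → R4 → ℝ}

lemma Dh_per (hF : Fl J G) (E : Fin 4 → Fin 4 → R4 → ℝ) (s : ℝ) (ξ : ℝ × ℝ) (m n : ℤ) :
    Dh G E s (ξ + ((m : ℝ), (n : ℝ))) = Dh G E s ξ := by
  unfold Dh
  simp only [Gh_per hF]

lemma Dh_cont (hF : Fl J G) (E : Fin 4 → Fin 4 → R4 → ℝ) :
    ContinuousOn (fun p : ℝ × (ℝ × ℝ) => Dh G E p.1 p.2) (Icc 0 1 ×ˢ univ) := by
  refine continuous_opMat fun c d => continuousOn_finsetSum _ fun j _ => ?_
  refine ContinuousOn.clm_comp ?_ ((continuous_Gh hF j).comp continuous_snd).continuousOn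
  refine Continuous.continuousOn ?_
  refine Continuous.add ?_ ?_
  · exact (Complex.continuous_ofReal.comp (continuous_const.sub continuous_fst)).smul
      continuous_const
  · exact ((Complex.continuous_ofReal.comp continuous_fst).mul continuous_const).smul
      continuous_const

/-- the diagonal operator of `Jh` -/
def JJ (J : ℝ × ℝ → H →L[ℂ] H) (ξ : ℝ × ℝ) : HH →L[ℂ] HH :=
  opMat fun c d => if c = d then Jh J ξ else 0

lemma JJ_apply (J : ℝ × ℝ → H →L[ℂ] H) (ξ : ℝ × ℝ) (w : HH) (c : Fin 2) :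
    JJ J ξ w c = Jh J ξ (w c) := by
  rw [JJ, opMat_apply, Finset.sum_eq_single c]
  · rw [if_pos rfl]
  · intro b _ hb
    rw [if_neg (Ne.symm hb)]
    rfl
  · simp

lemma JJ_compact (hF : Fl J G) (ξ : ℝ × ℝ) : IsCompactOperator (JJ J ξ) := by
  have h1 : ∀ c d : Fin 2, IsCompactOperator ((inc c ∘L (if c = d then Jh J ξ else 0) ∘L prj d :
      HH →L[ℂ] HH)) := by
    intro c d
    split_ifs with hcd
    · exact ((compact_Jh hF ξ).comp_clm (prj d)).clm_comp (inc c)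
    · have : (inc c ∘L (0 : H →L[ℂ] H) ∘L prj d : HH →L[ℂ] HH) = 0 := by
        ext1 w
        simp
      rw [this]
      exact isCompactOperator_zero
  unfold JJ opMat
  simp only [Fin.sum_univ_two]
  exact ((h1 0 0).add (h1 0 1)).add ((h1 1 0).add (h1 1 1))

lemma continuous_JJ (hF : Fl J G) : Continuous (JJ J) := by
  have h1 : ContinuousOn (JJ J) univ := by
    refine continuous_opMat fun c d => ?_
    split_ifs
    · exact (continuous_Jh hF).continuousOn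
    · exact continuousOn_const
  exact continuousOn_univ.mp h1

lemma JJ_per (hF : Fl J G) (ξ : ℝ × ℝ) (m n : ℤ) : JJ J (ξ + ((m : ℝ), (n : ℝ))) = JJ J ξ := by
  unfold JJ
  simp only [Jh_per hF]

lemma Dh_est (hF : Fl J G) (hE : Tri E) {s : ℝ} (hs : s ∈ Icc (0 : ℝ) 1) (ξ : ℝ × ℝ) :
    ∃ C > 0, ∀ ψ, ‖ψ‖ ≤ C * (‖Dh G E s ξ ψ‖ + ‖JJ J ξ ψ‖) := by
  have hEs := hE.Es hs
  obtain ⟨lam, hcl⟩ := cliff_of_frame sg_clifford hEs.smooth (fun a i n x => hEs.per a i n x)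
    hEs.det
  obtain ⟨C, hC, hE1⟩ := E1 hF hcl (fun j k => continuous_metF hEs j k) ξ
  refine ⟨Real.sqrt C, Real.sqrt_pos.mpr hC, ?_⟩
  intro ψ
  have h1 := hE1 (fun d => Vop (-ξ) (ψ d))
  have h2 : ∀ c, ‖Dop G (symF sg (Es E s)) ξ (fun d => Vop (-ξ) (ψ d)) c‖ =
      ‖Dh G E s ξ ψ c‖ := by
    intro c
    rw [Dh_apply hE, Dop_Gh (fun j c d => continuous_symF hEs sg j c d), norm_Vop]
  have h3 : ∀ d, ‖J ξ (Vop (-ξ) (ψ d))‖ = ‖JJ J ξ ψ d‖ := by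
    intro d
    rw [JJ_apply]
    simp only [Jh, ContinuousLinearMap.comp_apply, norm_Vop]
  simp only [norm_Vop, h2, h3] at h1
  rw [← PiLp.norm_sq_eq_of_L2 (fun _ : Fin 2 => H) ψ, ← PiLp.norm_sq_eq_of_L2 (fun _ : Fin 2 => H)
    (Dh G E s ξ ψ), ← PiLp.norm_sq_eq_of_L2 (fun _ : Fin 2 => H) (JJ J ξ ψ)] at h1
  have h4 : ‖ψ‖ ^ 2 ≤ (Real.sqrt C * (‖Dh G E s ξ ψ‖ + ‖JJ J ξ ψ‖)) ^ 2 := by
    rw [mul_pow, Real.sq_sqrt hC.le]
    refine h1.trans (mul_le_mul_of_nonneg_left ?_ hC.le)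
    have hA : 0 ≤ ‖Dh G E s ξ ψ‖ := norm_nonneg _
    have hA' : 0 ≤ ‖JJ J ξ ψ‖ := norm_nonneg _
    nlinarith
  exact (pow_le_pow_iff_left₀ (norm_nonneg _) (by positivity) two_ne_zero).mp h4

lemma Dh_bij (hD : FlD G θ) (E : Fin 4 → Fin 4 → R4 → ℝ) {ξ : ℝ × ℝ} (hξ : ξ ∉ Lat 0) :
    Function.Bijective (Dh G E 1 ξ) := by
  have hξ' : ∀ m n : ℤ, ξ ≠ ((m : ℝ), (n : ℝ)) := by
    intro m n h
    exact hξ ⟨m, n, by rw [h, zero_add]⟩
  have hb := hD.bij ξ hξ'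
  constructor
  · intro v w hvw
    obtain ⟨u, _, hu⟩ := hb (D1 G ξ fun d => Vop (-ξ) (v d))
    have h1 := hu (fun d => Vop (-ξ) (v d)) rfl
    have h2 := hu (fun d => Vop (-ξ) (w d)) ?_
    · ext1 d
      have h3 := congrFun (h1.trans h2.symm) d
      have h4 := congrArg (Vop ξ) h3
      simpa [Vop_neg_cancel] using h4
    · funext c
      have h3 := congrArg (fun y : HH => Vop (-ξ) (y c)) hvw
      simp only [Dh_one, Vop_neg_cancel'] at h3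
      exact h3.symm
  · intro y
    obtain ⟨u, hu, _⟩ := hb (fun c => Vop (-ξ) (y c))
    refine ⟨WithLp.toLp 2 fun d => Vop ξ (u d), ?_⟩
    ext1 c
    rw [Dh_one]
    simp only [Vop_neg_cancel']
    rw [hu, Vop_neg_cancel]

lemma Dh_ker (hD : FlD G θ) (E : Fin 4 → Fin 4 → R4 → ℝ) (ψ : HH) :
    Dh G E 1 0 ψ = 0 ↔ ∃ a : ℂ, ψ = a • (WithLp.toLp 2 ![θ, 0] : HH) := by
  have h1 : Dh G E 1 0 ψ = 0 ↔ D1 G 0 (fun d => ψ d) = 0 := by
    constructor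
    · intro h
      funext c
      have h2 := congrArg (fun y : HH => y c) h
      simp only [Dh_one, Vop_zero, neg_zero, ContinuousLinearMap.id_apply, PiLp.zero_apply] at h2
      exact h2
    · intro h
      ext1 c
      simp only [Dh_one, Vop_zero, neg_zero, ContinuousLinearMap.id_apply, PiLp.zero_apply]
      rw [h]
      rfl
  rw [h1, hD.ker]
  refine exists_congr fun a => ?_
  constructor
  · intro h
    ext1 c
    have := congrFun h c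
    rw [this]
    fin_cases c <;> simp
  · intro h
    funext c
    rw [h]
    fin_cases c <;> simp

lemma Dh_coker (hD : FlD G θ) (E : Fin 4 → Fin 4 → R4 → ℝ) (y : HH) :
    (∀ ψ, inner ℂ y (Dh G E 1 0 ψ) = 0) ↔ ∃ a : ℂ, y = a • (WithLp.toLp 2 ![0, θ] : HH) := by
  have h1 : (∀ ψ, inner ℂ y (Dh G E 1 0 ψ) = 0) ↔
      ∀ w, ∑ i, inner ℂ (y i) (D1 G 0 w i) = 0 := by
    constructor
    · intro h w
      have h2 := h (WithLp.toLp 2 w)
      rw [PiLp.inner_apply] at h2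
      simpa only [Dh_one, Vop_zero, neg_zero, ContinuousLinearMap.id_apply] using h2
    · intro h ψ
      rw [PiLp.inner_apply]
      simpa only [Dh_one, Vop_zero, neg_zero, ContinuousLinearMap.id_apply] using h fun d => ψ d
  rw [h1]
  have h2 := hD.coker (fun i => y i)
  rw [h2]
  refine exists_congr fun a => ?_
  constructor
  · intro h
    ext1 c
    have := congrFun h c
    change y c = _
    rw [this]
    fin_cases c <;> simp
  · intro h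
    funext c
    rw [h]
    fin_cases c <;> simp

/-! ### Estimates near the puncture -/

lemma lip_nonneg {C₂ : ℝ} (hC₂ : ∀ ξ ξ' j, ‖G ξ j - G ξ' j‖ ≤ C₂ * ‖ξ - ξ'‖) : 0 ≤ C₂ := by
  have h1 := hC₂ (1, 0) 0 0
  have h2 : (0 : ℝ) < ‖((1, 0) : ℝ × ℝ) - 0‖ := by
    rw [norm_pos_iff, sub_zero]
    intro h
    have := congrArg Prod.fst h
    simp at this
  have h3 := norm_nonneg (G (1, 0) 0 - G 0 0)
  by_contra h4
  have : C₂ * ‖((1, 0) : ℝ × ℝ) - 0‖ < 0 := mul_neg_of_neg_of_pos (not_le.mp h4) h2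
  linarith

lemma G_bound (hD : FlD G θ) : ∃ B : ℝ, 0 ≤ B ∧ (∀ ξ : ℝ × ℝ, ‖ξ‖ ≤ 1 → ∀ j, ‖G ξ j‖ ≤ B) ∧
    ∀ ξ j, ‖G ξ j - G 0 j‖ ≤ B * ‖ξ‖ := by
  obtain ⟨C₂, hC₂⟩ := hD.lip
  have hC₂0 := lip_nonneg hC₂
  have hs : 0 ≤ ∑ j, ‖G 0 j‖ := Finset.sum_nonneg fun j _ => norm_nonneg _
  refine ⟨∑ j, ‖G 0 j‖ + C₂, add_nonneg hs hC₂0, ?_, ?_⟩
  · intro ξ hξ j
    have h1 := hC₂ ξ 0 j
    rw [sub_zero] at h1
    have h2 : ‖G ξ j‖ ≤ ‖G ξ j - G 0 j‖ + ‖G 0 j‖ := by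
      have := norm_add_le (G ξ j - G 0 j) (G 0 j)
      rwa [sub_add_cancel] at this
    have h3 : ‖G 0 j‖ ≤ ∑ j, ‖G 0 j‖ :=
      Finset.single_le_sum (f := fun j => ‖G 0 j‖) (fun j _ => norm_nonneg _) (Finset.mem_univ j)
    have h4 : C₂ * ‖ξ‖ ≤ C₂ := by nlinarith
    linarith
  · intro ξ j
    have h1 := hC₂ ξ 0 j
    rw [sub_zero] at h1
    refine h1.trans ?_
    have := norm_nonneg ξ
    nlinarith

lemma Vop_sub_id (ξ : ℝ × ℝ) (v : H) : ‖Vop ξ v - v‖ ≤ 4 * Real.pi * ‖ξ‖ * ‖v‖ := by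
  have h1 := norm_Vop_sub_le ξ 0
  rw [sub_zero, Vop_zero] at h1
  calc ‖Vop ξ v - v‖ = ‖(Vop ξ - ContinuousLinearMap.id ℂ H) v‖ := by
        rw [sub_apply, ContinuousLinearMap.id_apply]
    _ ≤ _ := ContinuousLinearMap.le_of_opNorm_le _ h1 v

lemma Gh_lip (hD : FlD G θ) : ∃ C : ℝ, 0 ≤ C ∧ ∀ ξ : ℝ × ℝ, ‖ξ‖ ≤ 1 → ∀ j,
    ‖Gh G ξ j - Gh G 0 j‖ ≤ C * ‖ξ‖ := by
  obtain ⟨B, hB0, hB, hl⟩ := G_bound hD
  refine ⟨4 * Real.pi * B + (B + B * (4 * Real.pi)), by positivity, fun ξ hξ j => ?_⟩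
  have h1 : Gh G ξ j - Gh G 0 j = (Vop ξ - Vop 0) ∘L (G ξ j ∘L Vop (-ξ)) +
      ((G ξ j - G 0 j) ∘L Vop (-ξ) + G 0 j ∘L (Vop (-ξ) - Vop 0)) := by
    ext1 w
    simp only [Gh, Vop_zero, neg_zero, ContinuousLinearMap.comp_apply, sub_apply,
      add_apply, ContinuousLinearMap.id_apply, map_sub]
    abel
  have h2 : ‖Vop ξ - Vop 0‖ ≤ 4 * Real.pi * ‖ξ‖ := by
    have := norm_Vop_sub_le ξ 0
    rwa [sub_zero] at this
  have h3 : ‖Vop (-ξ) - Vop 0‖ ≤ 4 * Real.pi * ‖ξ‖ := by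
    have := norm_Vop_sub_le (-ξ) 0
    rwa [sub_zero, norm_neg] at this
  rw [h1]
  have h5 : ‖(Vop ξ - Vop 0) ∘L (G ξ j ∘L Vop (-ξ))‖ ≤ 4 * Real.pi * ‖ξ‖ * (B * 1) := by
    refine (ContinuousLinearMap.opNorm_comp_le _ _).trans ?_
    refine mul_le_mul h2 ?_ (norm_nonneg _) (by positivity)
    refine (ContinuousLinearMap.opNorm_comp_le _ _).trans ?_
    exact mul_le_mul (hB ξ hξ j) (norm_Vop_le _) (norm_nonneg _) hB0
  have h6 : ‖(G ξ j - G 0 j) ∘L Vop (-ξ)‖ ≤ B * ‖ξ‖ * 1 := by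
    refine (ContinuousLinearMap.opNorm_comp_le _ _).trans ?_
    exact mul_le_mul (hl ξ j) (norm_Vop_le _) (norm_nonneg _) (by positivity)
  have h7 : ‖G 0 j ∘L (Vop (-ξ) - Vop 0)‖ ≤ B * (4 * Real.pi * ‖ξ‖) := by
    refine (ContinuousLinearMap.opNorm_comp_le _ _).trans ?_
    exact mul_le_mul (hB 0 (by simp) j) h3 (norm_nonneg _) hB0
  calc _ ≤ _ := (norm_add_le _ _).trans (add_le_add h5 ((norm_add_le _ _).trans
        (add_le_add h6 h7)))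
    _ = _ := by ring

lemma opMat_sub (T T' : Fin 2 → Fin 2 → H →L[ℂ] H) :
    opMat T - opMat T' = opMat fun c d => T c d - T' c d := by
  ext1 w
  ext1 c
  rw [sub_apply, PiLp.sub_apply, opMat_apply, opMat_apply, opMat_apply,
    ← Finset.sum_sub_distrib]
  rfl

lemma Dh_lip (hD : FlD G θ) (E : Fin 4 → Fin 4 → R4 → ℝ) :
    (fun h : ℝ × ℝ => Dh G E 1 (0 + h) - Dh G E 1 0) =O[𝓝 0] fun h => h := by
  obtain ⟨C, hC, hl⟩ := Gh_lip hD
  let A : Fin 4 → Fin 2 → Fin 2 → H →L[ℂ] H := fun j c d =>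
    ((1 - (1 : ℝ) : ℝ) : ℂ) • mulOp (fun x => symF sg E j x c d)
    + (((1 : ℝ) : ℂ) * sg j c d) • ContinuousLinearMap.id ℂ H
  refine IsBigO.of_bound (∑ c, ∑ d, ‖inc c‖ * ((∑ j, ‖A j c d‖ * C) * ‖prj d‖)) ?_
  filter_upwards [Metric.ball_mem_nhds (0 : ℝ × ℝ) one_pos] with ξ hξ
  rw [mem_ball_zero_iff] at hξ
  rw [zero_add]
  unfold Dh
  rw [opMat_sub]
  refine (norm_opMat_le _).trans ?_
  rw [Finset.sum_mul]
  refine Finset.sum_le_sum fun c _ => ?_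
  rw [Finset.sum_mul]
  refine Finset.sum_le_sum fun d _ => ?_
  rw [← Finset.sum_sub_distrib]
  have h1 : ‖∑ j, (A j c d ∘L Gh G ξ j - A j c d ∘L Gh G 0 j)‖ ≤ (∑ j, ‖A j c d‖ * C) * ‖ξ‖ := by
    rw [Finset.sum_mul]
    refine (norm_sum_le _ _).trans (Finset.sum_le_sum fun j _ => ?_)
    rw [← ContinuousLinearMap.comp_sub]
    refine (ContinuousLinearMap.opNorm_comp_le _ _).trans ?_
    rw [mul_assoc]
    exact mul_le_mul_of_nonneg_left (hl ξ hξ.le j) (norm_nonneg _)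
  calc ‖inc c‖ * (‖∑ j, (A j c d ∘L Gh G ξ j - A j c d ∘L Gh G 0 j)‖ * ‖prj d‖) ≤
      ‖inc c‖ * (((∑ j, ‖A j c d‖ * C) * ‖ξ‖) * ‖prj d‖) := by
        refine mul_le_mul_of_nonneg_left ?_ (norm_nonneg _)
        exact mul_le_mul_of_nonneg_right h1 (norm_nonneg _)
    _ = _ := by ring

/-- the lower left entry of the flat operator -/
lemma D1_low (G : ℝ × ℝ → Fin 4 → H →L[ℂ] H) (ξ : ℝ × ℝ) (v : H) :
    D1 G ξ ![v, 0] 1 = G ξ 2 v + Complex.I • G ξ 3 v := by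
  simp [D1]

lemma Dh_der (hD : FlD G θ) (E : Fin 4 → Fin 4 → R4 → ℝ) {κ : ℂ} {C₁ : ℝ}
    (hκ : ∀ ξ : ℝ × ℝ, ‖inner ℂ θ (D1 G ξ ![θ, 0] 1) - κ * (ξ.1 + ξ.2 * Complex.I)‖ ≤
      C₁ * ‖ξ‖ ^ 2) :
    (fun h : ℝ × ℝ => inner ℂ (WithLp.toLp 2 ![0, θ] : HH)
      (Dh G E 1 (0 + h) (WithLp.toLp 2 ![θ, 0])) - κ * ((h.1 : ℂ) + (h.2 : ℂ) * Complex.I))
      =o[𝓝 0] fun h => h := by
  obtain ⟨B, hB0, hB, hl⟩ := G_bound hD
  have hθ := hD.unit
  have hpi := Real.pi_pos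
  -- the linear form and the kernel
  have hk : G 0 2 θ + Complex.I • G 0 3 θ = 0 := by
    have h1 := (hD.ker ![θ, 0]).mpr ⟨1, by rw [one_smul]⟩
    have h2 := congrFun h1 1
    rwa [D1_low] at h2
  have hc : ∀ v, inner ℂ θ (G 0 2 v + Complex.I • G 0 3 v) = 0 := by
    intro v
    have h1 := (hD.coker ![0, θ]).mpr ⟨1, by rw [one_smul]⟩ ![v, 0]
    rw [Fin.sum_univ_two] at h1
    have h2 : inner ℂ ((![0, θ] : Fin 2 → H) 0) (D1 G 0 ![v, 0] 0) = 0 := by simp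
    rw [h2, zero_add, D1_low] at h1
    exact h1
  have hn : ∀ ξ : ℝ × ℝ, ‖ξ‖ ≤ 1 → ∀ v, ‖G ξ 2 v + Complex.I • G ξ 3 v‖ ≤ 2 * B * ‖v‖ := by
    intro ξ hξ v
    refine (norm_add_le _ _).trans ?_
    rw [norm_smul, Complex.norm_I, one_mul]
    have h1 := (G ξ 2).le_of_opNorm_le (hB ξ hξ 2) v
    have h2 := (G ξ 3).le_of_opNorm_le (hB ξ hξ 3) v
    linarith
  have hd : ∀ ξ : ℝ × ℝ, ∀ v, ‖(G ξ 2 v + Complex.I • G ξ 3 v) - (G 0 2 v + Complex.I • G 0 3 v)‖ ≤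
      2 * B * ‖ξ‖ * ‖v‖ := by
    intro ξ v
    have h0 : (G ξ 2 v + Complex.I • G ξ 3 v) - (G 0 2 v + Complex.I • G 0 3 v) =
        (G ξ 2 - G 0 2) v + Complex.I • (G ξ 3 - G 0 3) v := by
      simp only [sub_apply, smul_sub]
      abel
    rw [h0]
    refine (norm_add_le _ _).trans ?_
    rw [norm_smul, Complex.norm_I, one_mul]
    have h1 := (G ξ 2 - G 0 2).le_of_opNorm_le (hl ξ 2) v
    have h2 := (G ξ 3 - G 0 3).le_of_opNorm_le (hl ξ 3) v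
    linarith
  have hbig : (fun h : ℝ × ℝ => inner ℂ (WithLp.toLp 2 ![0, θ] : HH)
      (Dh G E 1 (0 + h) (WithLp.toLp 2 ![θ, 0])) - κ * ((h.1 : ℂ) + (h.2 : ℂ) * Complex.I))
      =O[𝓝 0] fun h => ‖h‖ ^ 2 := by
    refine IsBigO.of_bound (C₁ + (4 * Real.pi * (2 * B) + (4 * Real.pi * (2 * B) +
      4 * Real.pi * (2 * B) * (4 * Real.pi)))) ?_
    filter_upwards [Metric.ball_mem_nhds (0 : ℝ × ℝ) one_pos] with ξ hξ
    rw [mem_ball_zero_iff] at hξ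
    rw [zero_add, Real.norm_of_nonneg (by positivity : (0 : ℝ) ≤ ‖ξ‖ ^ 2)]
    set δ : H := Vop (-ξ) θ - θ with hδ
    have hδn : ‖δ‖ ≤ 4 * Real.pi * ‖ξ‖ := by
      have := Vop_sub_id (-ξ) θ
      rwa [norm_neg, hθ, mul_one] at this
    have h1 : inner ℂ (WithLp.toLp 2 ![0, θ] : HH) (Dh G E 1 ξ (WithLp.toLp 2 ![θ, 0])) =
        inner ℂ (θ + δ) ((G ξ 2 θ + Complex.I • G ξ 3 θ) + (G ξ 2 δ + Complex.I • G ξ 3 δ)) := by
      rw [PiLp.inner_apply, Fin.sum_univ_two]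
      have h2 : inner ℂ ((WithLp.toLp 2 ![0, θ] : HH) 0)
          ((Dh G E 1 ξ (WithLp.toLp 2 ![θ, 0])) 0) = 0 := by simp
      rw [h2, zero_add, Dh_one]
      have h3 : ((WithLp.toLp 2 ![0, θ] : HH) 1) = θ := by simp
      have h4 : (fun d => Vop (-ξ) ((WithLp.toLp 2 ![θ, 0] : HH) d)) = ![θ + δ, 0] := by
        funext d
        fin_cases d
        · simp [hδ]
        · simp
      rw [h3, h4, D1_low]
      have h5 : θ + δ = Vop (-ξ) θ := by rw [hδ]; abel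
      rw [← inner_Vop (-ξ), Vop_neg_cancel', ← h5]
      congr 1
      simp only [map_add, smul_add]
      abel
    rw [h1]
    have h2 := hκ ξ
    rw [D1_low] at h2
    have e2 : inner ℂ (θ + δ) ((G ξ 2 θ + Complex.I • G ξ 3 θ) + (G ξ 2 δ + Complex.I • G ξ 3 δ))
        - κ * ((ξ.1 : ℂ) + (ξ.2 : ℂ) * Complex.I) =
        (inner ℂ θ (G ξ 2 θ + Complex.I • G ξ 3 θ) - κ * (ξ.1 + ξ.2 * Complex.I)) +
        (inner ℂ θ ((G ξ 2 δ + Complex.I • G ξ 3 δ) - (G 0 2 δ + Complex.I • G 0 3 δ)) +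
        (inner ℂ δ ((G ξ 2 θ + Complex.I • G ξ 3 θ) - (G 0 2 θ + Complex.I • G 0 3 θ)) +
        inner ℂ δ (G ξ 2 δ + Complex.I • G ξ 3 δ))) := by
      rw [inner_sub_right θ, hc δ, sub_zero, hk, sub_zero]
      rw [inner_add_left, inner_add_right θ, inner_add_right δ]
      ring
    rw [e2]
    have b1 : ‖inner ℂ θ ((G ξ 2 δ + Complex.I • G ξ 3 δ) - (G 0 2 δ + Complex.I • G 0 3 δ))‖ ≤
        1 * (2 * B * ‖ξ‖ * (4 * Real.pi * ‖ξ‖)) := by
      refine (norm_inner_le_norm _ _).trans ?_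
      rw [hθ]
      gcongr
      exact (hd ξ δ).trans (by gcongr)
    have b2 : ‖inner ℂ δ ((G ξ 2 θ + Complex.I • G ξ 3 θ) - (G 0 2 θ + Complex.I • G 0 3 θ))‖ ≤
        (4 * Real.pi * ‖ξ‖) * (2 * B * ‖ξ‖ * 1) := by
      refine (norm_inner_le_norm _ _).trans ?_
      have := hd ξ θ
      rw [hθ] at this
      gcongr
    have b3 : ‖inner ℂ δ (G ξ 2 δ + Complex.I • G ξ 3 δ)‖ ≤
        (4 * Real.pi * ‖ξ‖) * (2 * B * (4 * Real.pi * ‖ξ‖)) := by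
      refine (norm_inner_le_norm _ _).trans ?_
      gcongr
      exact (hn ξ hξ.le δ).trans (by gcongr)
    calc _ ≤ _ := (norm_add_le _ _).trans (add_le_add h2 ((norm_add_le _ _).trans
          (add_le_add b1 ((norm_add_le _ _).trans (add_le_add b2 b3)))))
      _ = _ := by ring
  exact hbig.trans_isLittleO (isLittleO_norm_pow_id one_lt_two)

end hyps

/-! ## The theorem -/

/-- Dirac operators: from the Fredholm Borsuk-Ulam theorem to solutions of `D ψ + K ψ = 0`. -/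
theorem glue (hFBU : FBU_statement) {J : ℝ × ℝ → H →L[ℂ] H} {G : ℝ × ℝ → Fin 4 → H →L[ℂ] H}
    {θ : H} (hF : Fl J G) (hD : FlD G θ) {E : Fin 4 → Fin 4 → R4 → ℝ} (hE : Tri E)
    (K : ℝ × ℝ → HH → HH) (hK : Continuous fun p : (ℝ × ℝ) × HH => K p.1 p.2)
    (hK1 : ∀ ξ w, K (ξ + (1, 0)) w = K ξ w) (hK2 : ∀ ξ w, K (ξ + (0, 1)) w = K ξ w)
    (hKh : ∀ ξ (a : ℂ) w, K ξ (a • w) = a • K ξ w)
    (hKc : ∀ R : ℝ, ∃ S : Set HH, IsCompact S ∧ ∀ ξ w, ‖w‖ ≤ R → K ξ w ∈ S) :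
    ∃ ξ, ∃ w : HH, w ≠ 0 ∧ ∀ c, Dop (Gh G) (symF sg E) ξ w c + K ξ w c = 0 := by
  obtain ⟨κ, hκ, C₁, hC₁⟩ := hD.der
  suffices hs : ∃ ξ, ∃ ψ ≠ 0, Dh G E 0 ξ ψ + K ξ ψ = 0 by
    obtain ⟨ξ, ψ, hψ, h⟩ := hs
    refine ⟨ξ, ψ, hψ, fun c => ?_⟩
    have h1 := congrArg (fun y : HH => y c) h
    simp only [PiLp.add_apply, PiLp.zero_apply] at h1
    rw [← Dh_zero hE]
    exact h1
  refine hFBU HH HH (Dh G E) (Dh_cont hF E) ?_ ?_ ?_ 0 (fun ξ hξ => Dh_bij hD E hξ)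
    (WithLp.toLp 2 ![θ, 0]) (WithLp.toLp 2 ![0, θ]) κ hκ (Dh_ker hD E) (Dh_coker hD E)
    (Dh_der hD E hC₁) (Dh_lip hD E) K hK hK1 hK2 hKh hKc
  · intro s _ ξ
    have := Dh_per hF E s ξ 1 0
    simpa using this
  · intro s _ ξ
    have := Dh_per hF E s ξ 0 1
    simpa using this
  · intro s hs ξ
    obtain ⟨C, hC, h⟩ := Dh_est hF hE hs ξ
    exact ⟨C, hC, JJ J ξ, JJ_compact hF ξ, h⟩

end Vale.Agent.P247.H199
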