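import Vale.Agent.P247.H94.E1
import Vale.Agent.P247.H931.Sta1
import Vale.Agent.P247.H647.Defs

/-!
# The flat model, made periodic in the flat parameter

`Vop ξ` is multiplication by `exp (2 π i (ξ₁ x₂ + ξ₂ x₃))`, `Jh = V J V⁻¹`, `Gh j = V G j V⁻¹`.
-/

open scoped ContDiff Topology
open Set MeasureTheory Filter Metric

noncomputable section

namespace Vale.Agent.P247.H199

open Vale.Agent.P247.H74 Vale.Agent.P247.H574 Vale.Agent.P247.H957 Vale.Agent.P247.H94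

/-! ## Multiplication operators -/

lemma mulOp_comp {f g : R4 → ℂ} (hf : Continuous f) (hg : Continuous g) :
    mulOp f ∘L mulOp g = mulOp (fun x => f x * g x) := by
  ext w
  have hfg : Continuous fun x => f x * g x := hf.mul hg
  filter_upwards [mulOp_ae hf (mulOp g w), mulOp_ae hg w, mulOp_ae hfg w] with x h1 h2 h3
  rw [ContinuousLinearMap.comp_apply, h1, h2, h3]
  ring

lemma mulOp_comm {f g : R4 → ℂ} (hf : Continuous f) (hg : Continuous g) :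
    mulOp f ∘L mulOp g = mulOp g ∘L mulOp f := by
  rw [mulOp_comp hf hg, mulOp_comp hg hf]
  congr 1
  funext x
  ring

lemma mulOp_comm_apply {f g : R4 → ℂ} (hf : Continuous f) (hg : Continuous g) (w : H) :
    mulOp f (mulOp g w) = mulOp g (mulOp f w) :=
  DFunLike.congr_fun (mulOp_comm hf hg) w

lemma mulOp_add {f g : R4 → ℂ} (hf : Continuous f) (hg : Continuous g) :
    mulOp (fun x => f x + g x) = mulOp f + mulOp g := by
  ext w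
  have hfg : Continuous fun x => f x + g x := hf.add hg
  filter_upwards [mulOp_ae hf w, mulOp_ae hg w, mulOp_ae hfg w,
    Lp.coeFn_add (mulOp f w) (mulOp g w)] with x h1 h2 h3 h4
  rw [add_apply, h3, h4, Pi.add_apply, h1, h2]
  ring

lemma mulOp_sub {f g : R4 → ℂ} (hf : Continuous f) (hg : Continuous g) :
    mulOp (fun x => f x - g x) = mulOp f - mulOp g := by
  ext w
  have hfg : Continuous fun x => f x - g x := hf.sub hg
  filter_upwards [mulOp_ae hf w, mulOp_ae hg w, mulOp_ae hfg w,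
    Lp.coeFn_sub (mulOp f w) (mulOp g w)] with x h1 h2 h3 h4
  rw [sub_apply, h3, h4, Pi.sub_apply, h1, h2]
  ring

lemma mulOp_smul (c : ℂ) {f : R4 → ℂ} (hf : Continuous f) :
    mulOp (fun x => c * f x) = c • mulOp f := by
  ext w
  have hfg : Continuous fun x => c * f x := continuous_const.mul hf
  filter_upwards [mulOp_ae hf w, mulOp_ae hfg w,
    Lp.coeFn_smul c (mulOp f w)] with x h1 h3 h4
  rw [smul_apply, h3, h4, Pi.smul_apply, h1, smul_eq_mul]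
  ring

lemma mulOp_const (c : ℂ) : mulOp (fun _ => c) = c • ContinuousLinearMap.id ℂ H := by
  ext w
  filter_upwards [mulOp_ae (continuous_const : Continuous fun _ : R4 => c) w,
    Lp.coeFn_smul c w] with x h1 h2
  rw [h1, smul_apply, ContinuousLinearMap.id_apply, h2, Pi.smul_apply,
    smul_eq_mul]

lemma norm_mulOp_le {f : R4 → ℂ} (hf : Continuous f) {C : ℝ} (hC : 0 ≤ C)
    (h : ∀ x ∈ Icc (0 : R4) 1, ‖f x‖ ≤ C) : ‖mulOp f‖ ≤ C := by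
  refine ContinuousLinearMap.opNorm_le_bound _ hC fun w => ?_
  refine Lp.norm_le_mul_norm_of_ae_le_mul ?_
  have hae : ∀ᵐ x ∂mQ, ‖f x‖ ≤ C := by
    rw [ae_restrict_iff' measurableSet_Icc]
    exact Eventually.of_forall fun x hx => h x hx
  filter_upwards [mulOp_ae hf w, hae] with x h1 h2
  rw [h1, norm_mul]
  gcongr

/-! ## The unitary operators `Vop` -/

lemma continuous_vx (ξ : ℝ × ℝ) : Continuous (vx ξ) := by
  unfold vx
  fun_prop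

lemma vx_mul (ξ η : ℝ × ℝ) (x : R4) : vx ξ x * vx η x = vx (ξ + η) x := by
  unfold vx
  rw [← Complex.exp_add]
  congr 1
  simp only [Prod.fst_add, Prod.snd_add, Complex.ofReal_add]
  ring

lemma vx_zero (x : R4) : vx 0 x = 1 := by simp [vx]

lemma norm_vx (ξ : ℝ × ℝ) (x : R4) : ‖vx ξ x‖ = 1 := by
  unfold vx
  rw [show (2 * Real.pi * Complex.I * (ξ.1 * x 2 + ξ.2 * x 3) : ℂ) =
    Complex.I * ((2 * Real.pi * (ξ.1 * x 2 + ξ.2 * x 3) : ℝ) : ℂ) by push_cast; ring]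
  rw [mul_comm Complex.I, Complex.norm_exp_ofReal_mul_I]

lemma norm_vx_sub_le (ξ η : ℝ × ℝ) {x : R4} (hx : x ∈ Icc (0 : R4) 1) :
    ‖vx ξ x - vx η x‖ ≤ 4 * Real.pi * ‖ξ - η‖ := by
  have h1 : vx ξ x - vx η x = vx η x * (vx (ξ - η) x - 1) := by
    rw [mul_sub, vx_mul, mul_one, add_sub_cancel]
  rw [h1, norm_mul, norm_vx, one_mul]
  unfold vx
  rw [show (2 * Real.pi * Complex.I * ((ξ - η).1 * x 2 + (ξ - η).2 * x 3) : ℂ) =
    Complex.I * ((2 * Real.pi * ((ξ - η).1 * x 2 + (ξ - η).2 * x 3) : ℝ) : ℂ) by push_cast; ring]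
  refine (Real.norm_exp_I_mul_ofReal_sub_one_le).trans ?_
  have h2 : |x 2| ≤ 1 := by
    rw [abs_le]; exact ⟨by linarith [hx.1 2, show (0 : R4) 2 = 0 from rfl], hx.2 2⟩
  have h3 : |x 3| ≤ 1 := by
    rw [abs_le]; exact ⟨by linarith [hx.1 3, show (0 : R4) 3 = 0 from rfl], hx.2 3⟩
  have h4 : |(ξ - η).1| ≤ ‖ξ - η‖ := by
    have := norm_fst_le (ξ - η); rwa [Real.norm_eq_abs] at this
  have h5 : |(ξ - η).2| ≤ ‖ξ - η‖ := by
    have := norm_snd_le (ξ - η); rwa [Real.norm_eq_abs] at this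
  have hpi := Real.pi_pos
  rw [Real.norm_eq_abs, abs_mul, abs_of_pos (by positivity : (0:ℝ) < 2 * Real.pi)]
  have h6 : |(ξ - η).1 * x 2 + (ξ - η).2 * x 3| ≤ 2 * ‖ξ - η‖ := by
    refine (abs_add_le _ _).trans ?_
    rw [abs_mul, abs_mul]
    have h7 : |(ξ - η).1| * |x 2| ≤ ‖ξ - η‖ * 1 := by gcongr
    have h8 : |(ξ - η).2| * |x 3| ≤ ‖ξ - η‖ * 1 := by gcongr
    linarith
  calc 2 * Real.pi * |(ξ - η).1 * x 2 + (ξ - η).2 * x 3| ≤ 2 * Real.pi * (2 * ‖ξ - η‖) := by gcongr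
    _ = 4 * Real.pi * ‖ξ - η‖ := by ring

/-- multiplication by `exp (2 π i (ξ₁ x₂ + ξ₂ x₃))` -/
def Vop (ξ : ℝ × ℝ) : H →L[ℂ] H := mulOp (vx ξ)

lemma Vop_comp (ξ η : ℝ × ℝ) : Vop ξ ∘L Vop η = Vop (ξ + η) := by
  unfold Vop
  rw [mulOp_comp (continuous_vx ξ) (continuous_vx η)]
  congr 1
  funext x
  exact vx_mul ξ η x

lemma Vop_Vop (ξ η : ℝ × ℝ) (w : H) : Vop ξ (Vop η w) = Vop (ξ + η) w :=
  DFunLike.congr_fun (Vop_comp ξ η) w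

lemma Vop_zero : Vop 0 = ContinuousLinearMap.id ℂ H := by
  unfold Vop
  rw [show vx 0 = fun _ => (1 : ℂ) from funext vx_zero, mulOp_const, one_smul]

lemma Vop_neg_cancel (ξ : ℝ × ℝ) (w : H) : Vop ξ (Vop (-ξ) w) = w := by
  rw [Vop_Vop, add_neg_cancel, Vop_zero]; rfl

lemma Vop_neg_cancel' (ξ : ℝ × ℝ) (w : H) : Vop (-ξ) (Vop ξ w) = w := by
  rw [Vop_Vop, neg_add_cancel, Vop_zero]; rfl

lemma norm_Vop_le (ξ : ℝ × ℝ) : ‖Vop ξ‖ ≤ 1 :=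
  norm_mulOp_le (continuous_vx ξ) zero_le_one fun x _ => (norm_vx ξ x).le

lemma norm_Vop (ξ : ℝ × ℝ) (w : H) : ‖Vop ξ w‖ = ‖w‖ := by
  apply le_antisymm
  · calc ‖Vop ξ w‖ ≤ ‖Vop ξ‖ * ‖w‖ := (Vop ξ).le_opNorm w
      _ ≤ 1 * ‖w‖ := by gcongr; exact norm_Vop_le ξ
      _ = ‖w‖ := one_mul _
  · calc ‖w‖ = ‖Vop (-ξ) (Vop ξ w)‖ := by rw [Vop_neg_cancel']
      _ ≤ ‖Vop (-ξ)‖ * ‖Vop ξ w‖ := (Vop (-ξ)).le_opNorm _
      _ ≤ 1 * ‖Vop ξ w‖ := by gcongr; exact norm_Vop_le _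
      _ = ‖Vop ξ w‖ := one_mul _

lemma inner_Vop (ξ : ℝ × ℝ) (v w : H) : inner ℂ (Vop ξ v) (Vop ξ w) = inner ℂ v w := by
  rw [L2.inner_def, L2.inner_def]
  refine integral_congr_ae ?_
  filter_upwards [mulOp_ae (continuous_vx ξ) v, mulOp_ae (continuous_vx ξ) w] with x h1 h2
  have h3 : (starRingEnd ℂ) (vx ξ x) * vx ξ x = 1 := by
    rw [Complex.conj_mul', norm_vx]; simp
  change inner ℂ ((mulOp (vx ξ) v) x) ((mulOp (vx ξ) w) x) = inner ℂ (v x) (w x)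
  rw [h1, h2]
  simp only [RCLike.inner_apply, map_mul]
  calc vx ξ x * w x * ((starRingEnd ℂ) (vx ξ x) * (starRingEnd ℂ) (v x)) =
      ((starRingEnd ℂ) (vx ξ x) * vx ξ x) * (w x * (starRingEnd ℂ) (v x)) := by ring
    _ = w x * (starRingEnd ℂ) (v x) := by rw [h3, one_mul]

lemma inner_Vop_left (ξ : ℝ × ℝ) (v w : H) : inner ℂ (Vop ξ v) w = inner ℂ v (Vop (-ξ) w) := by
  rw [← inner_Vop (-ξ) (Vop ξ v) w, Vop_neg_cancel']

lemma norm_Vop_sub_le (ξ η : ℝ × ℝ) : ‖Vop ξ - Vop η‖ ≤ 4 * Real.pi * ‖ξ - η‖ := by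
  unfold Vop
  rw [← mulOp_sub (continuous_vx ξ) (continuous_vx η)]
  exact norm_mulOp_le ((continuous_vx ξ).sub (continuous_vx η))
    (by positivity) fun x hx => norm_vx_sub_le ξ η hx

lemma continuous_Vop : Continuous Vop := by
  refine (LipschitzWith.of_dist_le_mul (K := ⟨4 * Real.pi, by positivity⟩) fun ξ η => ?_).continuous
  rw [dist_eq_norm, dist_eq_norm]
  exact norm_Vop_sub_le ξ η

lemma Vop_mulOp (ξ : ℝ × ℝ) {f : R4 → ℂ} (hf : Continuous f) (w : H) :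
    Vop ξ (mulOp f w) = mulOp f (Vop ξ w) :=
  mulOp_comm_apply (continuous_vx ξ) hf w

/-! ## The periodic model -/

/-- `J` conjugated by `Vop` -/
def Jh (J : ℝ × ℝ → H →L[ℂ] H) (ξ : ℝ × ℝ) : H →L[ℂ] H := Vop ξ ∘L J ξ ∘L Vop (-ξ)

/-- `G` conjugated by `Vop` -/
def Gh (G : ℝ × ℝ → Fin 4 → H →L[ℂ] H) (ξ : ℝ × ℝ) (j : Fin 4) : H →L[ℂ] H :=
  Vop ξ ∘L G ξ j ∘L Vop (-ξ)

lemma cj_per {T : ℝ × ℝ → H →L[ℂ] H} (h : ∀ ξ (m n : ℤ),
    mulOp (vx (m, n)) ∘L T (ξ + ((m : ℝ), (n : ℝ))) = T ξ ∘L mulOp (vx (m, n)))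
    (ξ : ℝ × ℝ) (m n : ℤ) :
    Vop (ξ + ((m : ℝ), (n : ℝ))) ∘L T (ξ + ((m : ℝ), (n : ℝ))) ∘L
      Vop (-(ξ + ((m : ℝ), (n : ℝ)))) = Vop ξ ∘L T ξ ∘L Vop (-ξ) := by
  ext1 w
  simp only [ContinuousLinearMap.comp_apply]
  rw [← Vop_Vop ξ ((m : ℝ), (n : ℝ))]
  have h1 : ∀ u, Vop ((m : ℝ), (n : ℝ)) (T (ξ + ((m : ℝ), (n : ℝ))) u) =
      T ξ (Vop ((m : ℝ), (n : ℝ)) u) := fun u => by
    have := DFunLike.congr_fun (h ξ m n) u
    simpa [Vop] using this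
  rw [h1, Vop_Vop, neg_add, add_comm (-ξ), ← add_assoc, add_neg_cancel, zero_add]

lemma Jh_per {J : ℝ × ℝ → H →L[ℂ] H} {G : ℝ × ℝ → Fin 4 → H →L[ℂ] H} (hF : Fl J G)
    (ξ : ℝ × ℝ) (m n : ℤ) : Jh J (ξ + ((m : ℝ), (n : ℝ))) = Jh J ξ :=
  cj_per hF.perJ ξ m n

lemma Gh_per {J : ℝ × ℝ → H →L[ℂ] H} {G : ℝ × ℝ → Fin 4 → H →L[ℂ] H} (hF : Fl J G)
    (ξ : ℝ × ℝ) (m n : ℤ) (j : Fin 4) : Gh G (ξ + ((m : ℝ), (n : ℝ))) j = Gh G ξ j :=
  cj_per (T := fun ξ => G ξ j) (fun ξ m n => hF.perG ξ m n j) ξ m n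

lemma continuous_cj {T : ℝ × ℝ → H →L[ℂ] H} (h : Continuous T) :
    Continuous fun ξ => Vop ξ ∘L T ξ ∘L Vop (-ξ) :=
  (continuous_Vop).clm_comp (h.clm_comp (continuous_Vop.comp continuous_neg))

lemma continuous_Jh {J : ℝ × ℝ → H →L[ℂ] H} {G : ℝ × ℝ → Fin 4 → H →L[ℂ] H} (hF : Fl J G) :
    Continuous (Jh J) := continuous_cj hF.contJ

lemma continuous_Gh {J : ℝ × ℝ → H →L[ℂ] H} {G : ℝ × ℝ → Fin 4 → H →L[ℂ] H} (hF : Fl J G)
    (j : Fin 4) : Continuous fun ξ => Gh G ξ j := continuous_cj (hF.contG j)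

lemma compact_Jh {J : ℝ × ℝ → H →L[ℂ] H} {G : ℝ × ℝ → Fin 4 → H →L[ℂ] H} (hF : Fl J G)
    (ξ : ℝ × ℝ) : IsCompactOperator (Jh J ξ) := by
  have h1 : IsCompactOperator (J ξ ∘L Vop (-ξ)) := (hF.compact ξ).comp_clm (Vop (-ξ))
  exact h1.clm_comp (Vop ξ)

lemma inj_Jh {J : ℝ × ℝ → H →L[ℂ] H} {G : ℝ × ℝ → Fin 4 → H →L[ℂ] H} (hF : Fl J G)
    (ξ : ℝ × ℝ) : Function.Injective (Jh J ξ) := by
  intro v w h
  have h1 : J ξ (Vop (-ξ) v) = J ξ (Vop (-ξ) w) := by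
    have := congrArg (Vop (-ξ)) h
    simpa [Jh, Vop_neg_cancel'] using this
  have h2 := congrArg (Vop ξ) (hF.inj ξ h1)
  rwa [Vop_neg_cancel, Vop_neg_cancel] at h2

lemma norm_Jh_Gh {J : ℝ × ℝ → H →L[ℂ] H} {G : ℝ × ℝ → Fin 4 → H →L[ℂ] H} (hF : Fl J G)
    (ξ : ℝ × ℝ) (w : H) : ‖w‖ ^ 2 = ‖Jh J ξ w‖ ^ 2 + ∑ j, ‖Gh G ξ j w‖ ^ 2 := by
  have := hF.norm ξ (Vop (-ξ) w)
  rw [norm_Vop] at this
  simp only [Jh, Gh, ContinuousLinearMap.comp_apply, norm_Vop]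
  exact this

/-- the smooth sections represented in the conjugated model -/
lemma dense_Jh {J : ℝ × ℝ → H →L[ℂ] H} {G : ℝ × ℝ → Fin 4 → H →L[ℂ] H} (hF : Fl J G)
    (ξ : ℝ × ℝ) : Dense {w : H | ∃ φ, Sec φ ∧ Rep (Jh J ξ w) (fun x => vx ξ x * φ x) ∧
      ∀ j, Rep (Gh G ξ j w) (fun x => vx ξ x * nb ξ j φ x)} := by
  have h1 : Function.Surjective (Vop ξ) := fun w => ⟨Vop (-ξ) w, Vop_neg_cancel ξ w⟩
  refine (h1.denseRange.dense_image (Vop ξ).continuous (hF.dense ξ)).mono ?_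
  rintro _ ⟨w, ⟨φ, hφ, h2, h3⟩, rfl⟩
  refine ⟨φ, hφ, ?_, fun j => ?_⟩
  · have h4 : Jh J ξ (Vop ξ w) = mulOp (vx ξ) (J ξ w) := by
      simp only [Jh, ContinuousLinearMap.comp_apply, Vop_neg_cancel']
      rfl
    rw [h4]
    exact rep_mulOp (continuous_vx ξ) h2
  · have h4 : Gh G ξ j (Vop ξ w) = mulOp (vx ξ) (G ξ j w) := by
      simp only [Gh, ContinuousLinearMap.comp_apply, Vop_neg_cancel']
      rfl
    rw [h4]
    exact rep_mulOp (continuous_vx ξ) (h3 j)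

end Vale.Agent.P247.H199
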