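import Vale.Agent.P247.H199.Glue

/-!
# The matrices of `H647/Defs`
-/

open scoped ContDiff Topology
open Set MeasureTheory Filter Metric Asymptotics

noncomputable section

namespace Vale.Agent.P247.H199

open Vale.Agent.P247.H74 Vale.Agent.P247.H574 Vale.Agent.P247.H957 Vale.Agent.P247.H94
open Vale.Agent.P247.H931 Vale.Agent.P247.H647

/-- the unitary `(P₁ + P₃) / √2` -/
def UM : Matrix (Fin 2) (Fin 2) ℂ :=
  !![((1 / √2 : ℝ) : ℂ), ((1 / √2 : ℝ) : ℂ); ((1 / √2 : ℝ) : ℂ), -((1 / √2 : ℝ) : ℂ)]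

lemma sq2 : (((1 / √2 : ℝ) : ℂ)) * ((1 / √2 : ℝ) : ℂ) = 1 / 2 := by
  rw [← Complex.ofReal_mul]
  have : (1 / √2 : ℝ) * (1 / √2) = 1 / 2 := by
    rw [div_mul_div_comm, one_mul, Real.mul_self_sqrt zero_le_two]
  rw [this]
  norm_num

lemma UM_sq : UM * UM = 1 := by
  ext i j
  fin_cases i <;> fin_cases j <;>
    simp only [UM, Matrix.mul_apply, Fin.sum_univ_two, Matrix.of_apply, Matrix.cons_val_zero,
      Matrix.cons_val_one, Fin.zero_eta, Fin.mk_one, mul_neg, neg_mul, sq2, Matrix.one_apply,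
      neg_neg] <;> norm_num

lemma UM_sig (a : Fin 4) : sigM a = UM * sg a * UM := by
  have ht := sq2
  unfold UM
  generalize ((1 / √2 : ℝ) : ℂ) = t at ht ⊢
  have h1 : t * Complex.I * t = Complex.I / 2 := by linear_combination Complex.I * ht
  fin_cases a <;> ext i j <;> fin_cases i <;> fin_cases j <;>
    simp [sigM, pauM, sg, Matrix.mul_apply, Fin.sum_univ_two, ht, h1] <;>
    ring

/-- the unitary operator on two-component fields -/
def Uo : HH →L[ℂ] HH := opMat fun c d => UM c d • ContinuousLinearMap.id ℂ H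

lemma Uo_apply (w : HH) (c : Fin 2) : Uo w c = ∑ d, UM c d • w d := by
  rw [Uo, opMat_apply]
  rfl

lemma Uo_Uo (w : HH) : Uo (Uo w) = w := by
  ext1 c
  rw [Uo_apply]
  simp only [Uo_apply, Fin.sum_univ_two, smul_add, smul_smul]
  have h := UM_sq
  have h1 : ∀ i j, UM i 0 * UM 0 j + UM i 1 * UM 1 j = if i = j then 1 else 0 := by
    intro i j
    have := congrFun (congrFun h i) j
    rw [Matrix.mul_apply, Fin.sum_univ_two, Matrix.one_apply] at this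
    exact this
  have h2 : (UM c 0 * UM 0 0) • w 0 + (UM c 0 * UM 0 1) • w 1 + ((UM c 1 * UM 1 0) • w 0 +
      (UM c 1 * UM 1 1) • w 1) = (UM c 0 * UM 0 0 + UM c 1 * UM 1 0) • w 0 +
      (UM c 0 * UM 0 1 + UM c 1 * UM 1 1) • w 1 := by module
  rw [h2, h1, h1]
  fin_cases c <;> simp

lemma symF_sigM (E : Fin 4 → Fin 4 → R4 → ℝ) (j : Fin 4) (x : R4) (c d : Fin 2) :
    symF sigM E j x c d = UM c 0 * UM 0 d * symF sg E j x 0 0 + UM c 0 * UM 1 d * symF sg E j x 0 1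
      + (UM c 1 * UM 0 d * symF sg E j x 1 0 + UM c 1 * UM 1 d * symF sg E j x 1 1) := by
  simp only [symF_apply, UM_sig, Matrix.mul_apply, Fin.sum_univ_two, Fin.sum_univ_four]
  ring

lemma mulOp_sigM {E : Fin 4 → Fin 4 → R4 → ℝ} (hE : Tri E) (j : Fin 4) (c d : Fin 2) :
    mulOp (fun x => symF sigM E j x c d) =
      (UM c 0 * UM 0 d) • mulOp (fun x => symF sg E j x 0 0) +
      (UM c 0 * UM 1 d) • mulOp (fun x => symF sg E j x 0 1)
      + ((UM c 1 * UM 0 d) • mulOp (fun x => symF sg E j x 1 0) +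
      (UM c 1 * UM 1 d) • mulOp (fun x => symF sg E j x 1 1)) := by
  have hc : ∀ e f, Continuous fun x => symF sg E j x e f := fun e f => continuous_symF hE sg j e f
  have hk : ∀ (z : ℂ) e f, Continuous fun x => z * symF sg E j x e f := fun z e f =>
    continuous_const.mul (hc e f)
  simp only [symF_sigM]
  rw [mulOp_add (f := fun x => UM c 0 * UM 0 d * symF sg E j x 0 0 +
      UM c 0 * UM 1 d * symF sg E j x 0 1) (g := fun x => UM c 1 * UM 0 d * symF sg E j x 1 0 +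
      UM c 1 * UM 1 d * symF sg E j x 1 1) ((hk _ 0 0).add (hk _ 0 1)) ((hk _ 1 0).add (hk _ 1 1)),
    mulOp_add (hk _ 0 0) (hk _ 0 1), mulOp_add (hk _ 1 0) (hk _ 1 1),
    mulOp_smul _ (hc 0 0), mulOp_smul _ (hc 0 1), mulOp_smul _ (hc 1 0), mulOp_smul _ (hc 1 1)]

lemma Dop_sigM {G : ℝ × ℝ → Fin 4 → H →L[ℂ] H} {E : Fin 4 → Fin 4 → R4 → ℝ} (hE : Tri E)
    (ξ : ℝ × ℝ) (w : HH) (c : Fin 2) :
    Dop G (symF sigM E) ξ w c = ∑ e, UM c e • Dop G (symF sg E) ξ (Uo w) e := by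
  unfold Dop
  rw [Fin.sum_univ_two, Finset.smul_sum, Finset.smul_sum, ← Finset.sum_add_distrib]
  refine Finset.sum_congr rfl fun j _ => ?_
  simp only [mulOp_sigM hE, Uo_apply, Fin.sum_univ_two, map_add, map_smul, add_apply, smul_apply]
  module

/-- Dirac operators with the matrices of `H647/Defs`. -/
theorem glue_sig (hFBU : FBU_statement) {J : ℝ × ℝ → H →L[ℂ] H} {G : ℝ × ℝ → Fin 4 → H →L[ℂ] H}
    {θ : H} (hF : Fl J G) (hD : FlD G θ) {E : Fin 4 → Fin 4 → R4 → ℝ} (hE : Tri E)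
    (K : ℝ × ℝ → HH → HH) (hK : Continuous fun p : (ℝ × ℝ) × HH => K p.1 p.2)
    (hK1 : ∀ ξ w, K (ξ + (1, 0)) w = K ξ w) (hK2 : ∀ ξ w, K (ξ + (0, 1)) w = K ξ w)
    (hKh : ∀ ξ (a : ℂ) w, K ξ (a • w) = a • K ξ w)
    (hKc : ∀ R : ℝ, ∃ S : Set HH, IsCompact S ∧ ∀ ξ w, ‖w‖ ≤ R → K ξ w ∈ S) :
    ∃ ξ, ∃ w : HH, w ≠ 0 ∧ ∀ c, Dop (Gh G) (symF sigM E) ξ w c + K ξ w c = 0 := by
  obtain ⟨ξ, w, hw, h⟩ := glue hFBU hF hD hE (fun ξ w => Uo (K ξ (Uo w)))
    (Uo.continuous.comp (hK.comp (continuous_fst.prodMk (Uo.continuous.comp continuous_snd))))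
    (fun ξ w => by rw [hK1]) (fun ξ w => by rw [hK2])
    (fun ξ a w => by rw [map_smul, hKh, map_smul]) (fun R => by
      obtain ⟨S, hS, h⟩ := hKc (‖Uo‖ * R)
      refine ⟨Uo '' S, hS.image Uo.continuous, fun ξ w hw => ?_⟩
      refine mem_image_of_mem _ (h ξ _ ?_)
      exact (Uo.le_opNorm w).trans (mul_le_mul_of_nonneg_left hw (norm_nonneg _)))
  refine ⟨ξ, Uo w, ?_, fun c => ?_⟩
  · intro h0
    apply hw
    rw [← Uo_Uo w, h0, map_zero]
  · rw [Dop_sigM hE, Uo_Uo]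
    have h1 : K ξ (Uo w) c = ∑ e, UM c e • (Uo (K ξ (Uo w))) e := by
      rw [← Uo_apply, Uo_Uo]
    rw [h1, ← Finset.sum_add_distrib]
    refine Finset.sum_eq_zero fun e _ => ?_
    rw [← smul_add, h e, smul_zero]

end Vale.Agent.P247.H199
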